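import Vale.Agent.P275XB.Inst
import Vale.Agent.P275Z.Top

/-!
P275 (helper22): the block CPT of the skeleton.
-/

namespace Vale.Agent.P275XB

theorem ok_of_adm {g n : ℕ} {d : ℤ} (h : P275Z.Adm g n d) : Ok g n d :=
  ⟨by have := h.hg; omega, by have := h.hn; omega, h.cop⟩

instance (S : P275Z.Sit) : Ok S.g S.n (P275ST.deg S.D) := ok_of_adm S.adm

theorem cpt : P275Z.CPT := fun g n d h =>
  haveI := ok_of_adm h
  exists_cpt g n d

end Vale.Agent.P275XB
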