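import Vale.Agent.P275XB.Man
import Vale.Agent.P275RG.Cpt
import Vale.Agent.P275QV.Mu
import Vale.Agent.P092TO.BL

/-!
P275 (helper22): the twisted character variety is a smooth affine variety.
-/

set_option linter.all false

open Set Filter Function Module Topology Matrix
open scoped Manifold ContDiff Matrix.Norms.Operator commutatorElement
open Vale.Agent.P272.K (Cm Chart At)
open Vale.Agent.P277Z (Hol at_chart)
open Vale.Agent.P281Z Vale.Agent.P275RG
open Vale.Agent.P275ST (Rep XB IsReg Cpt dimR zeta)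
open P275BC (Ix Rz mu)

noncomputable section

namespace Vale.Agent.P275XB

section gen

variable {ι : Type} [Fintype ι] {n : ℕ}

/-- Burnside -/
theorem irr_of_sub {x : ι → Mt n}
    (h : ∀ E : Submodule ℂ (Fin n → ℂ), (∀ s, ∀ v ∈ E, x s *ᵥ v ∈ E) → E = ⊥ ∨ E = ⊤) : Irr x := by
  have h1 := P092TO.burnside ((toLinAlgEquiv' : Mt n ≃ₐ[ℂ] _).toAlgHom.toMonoidHom.comp
    (FreeMonoid.lift x)) fun E hE => h E fun s v hv => by simpa using hE (.of s) v hv
  refine Submodule.map_injective_of_injective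
    (f := (toLinAlgEquiv' : Mt n ≃ₐ[ℂ] _).toLinearEquiv.toLinearMap) toLinAlgEquiv'.injective ?_
  rw [Submodule.map_top, LinearEquiv.range, Submodule.map_span, ← range_comp, eq_top_iff, ← h1]
  exact Submodule.span_mono (range_subset_iff.2 fun l =>
    ⟨l.toList, congrArg toLinAlgEquiv' (FreeMonoid.lift_apply x l).symm⟩)

/-- generic matrices -/
def gm (s : ι) : Matrix (Fin n) (Fin n) (MvPolynomial (ι × Fin n × Fin n) ℂ) :=
  of fun a b => .X (s, a, b)

/-- evaluation at a tuple -/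
def ev (x : ι → Mt n) : MvPolynomial (ι × Fin n × Fin n) ℂ →+* ℂ :=
  MvPolynomial.eval fun q => x q.1 q.2.1 q.2.2

theorem ev_gm (x : ι → Mt n) (s : ι) : (ev x).mapMatrix (gm s) = x s := by
  ext a b
  simp [ev, gm]

theorem ev_tr (x : ι → Mt n) (l : List ι) : (wd x l).trace = ev x (wd gm l).trace := by
  rw [AddMonoidHom.map_trace, ← RingHom.mapMatrix_apply, map_wd]
  simp only [ev_gm]

theorem reg_ev {m : ℕ} {U : Type} [TopologicalSpace U] [ChartedSpace (Cm m) U]
    [IsManifold 𝓘(ℂ, Cm m) ω U] {c : Cp m U} {ε : U → ι → Mt n} (h : ∀ k, Reg c fun a => co (ε a) k)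
    (P : MvPolynomial (ι × Fin n × Fin n) ℂ) : Reg c fun a => ev (ε a) P :=
  .eval (fun q => by simpa only [co_apply] using h (Fintype.equivFin _ q)) P

variable {R Q : Type} [TopologicalSpace R] [TopologicalSpace Q] {m d : ℕ} {ε : R → ι → Mt n}
  {π : R → Q} {τ : Q → Cm (NW ι n)} [ChartedSpace (Cm m) R] [IsManifold 𝓘(ℂ, Cm m) ω R]
  [ChartedSpace (Cm d) Q] [IsManifold 𝓘(ℂ, Cm d) ω Q]

/-- **The quotient of an affine variety is an affine variety** -/
theorem Pk.cp (P : Pk m d ε π τ) (hR : Emb m (NE ι n) (fun a => co (ε a)) (range fun a => co (ε a)))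
    (hQ : Emb d (NW ι n) τ (range τ)) (hZ : Zc (cA _) (range fun a => co (ε a))) :
    ∃ (cR : Cp m R) (cQ : Cp d Q), cR.Y.Prj ∧ cQ.Y.Prj ∧ (∀ k, Reg cR fun a => co (ε a) k) ∧
      (∀ k, Reg cQ fun x => τ x k) ∧ Alg cR cQ π ∧
      ∀ t : Q → ℂ, (Reg cR fun a => t (π a)) → Reg cQ t := by
  obtain ⟨cR, a1, a2⟩ := aff hZ (.empty _) ((diff_empty (s := range _)).symm ▸ hR) P.indR.isInducing
  have a3 : ∀ k, Reg cR fun a => τ (π a) k := fun k => by
    simpa only [P.tr, Tr, ev_tr] using reg_ev a2 _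
  have a4 : range τ = (fun a => τ (π a)) '' univ := by
    rw [image_univ, ← P.quo.surjective.range_comp τ]
    rfl
  obtain ⟨cQ, b1, b2⟩ := aff (A := range τ) (a4 ▸ (Zc.univ cR).img (alg_iff_reg.2 a3)
    (a4 ▸ P.closedEmb.isClosed_range)) (.empty _) ((diff_empty (s := range _)).symm ▸ hQ)
    P.closedEmb.isInducing
  have b3 := alg_of_reg b2 P.closedEmb.isInducing hQ.imm a3
  refine ⟨cR, cQ, a1, b1, a2, b2, b3, fun t ht => (alg_iff_reg (t := fun x (_ : Fin 1) => t x)).1
    (b3.desc P.quo.surjective (fun x => holA_iff.2 fun _ => ?_) (alg_iff_reg.2 fun _ => ht)) 0⟩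
  obtain ⟨a, rfl⟩ := P.quo.surjective x
  exact (P.sbm hR hQ a).hol_desc (P.hol hR hQ a) (ht.hol a)

theorem exists_sl (hn : n ≠ 0) (g : GL (Fin n) ℂ) : ∃ P : SpecialLinearGroup (Fin n) ℂ,
    ∀ x : ι → Mt n, cj g x = cj (SpecialLinearGroup.toGL P) x := by
  obtain ⟨c, hc⟩ := IsAlgClosed.exists_pow_nat_eq (g : Mt n).det (Nat.pos_of_ne_zero hn)
  have h0 : c ≠ 0 := fun e => g.det_ne_zero (by rw [← hc, e, zero_pow hn])
  refine ⟨⟨c⁻¹ • (g : Mt n), by rw [det_smul, ← hc]; simp [h0]⟩, fun x => eq_cj_iff.2 fun i => ?_⟩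
  show _ * (c⁻¹ • (g : Mt n)) = c⁻¹ • (g : Mt n) * _
  rw [mul_smul_comm, smul_mul_assoc, eq_cj_iff.1 rfl]

end gen

variable {g n : ℕ} {d : ℤ}

/-- the matrices of a representation -/
def ep (ρ : Rep g n d) : Fin g × Bool → Mt n := fun s => (ρ.1 s).1

/-- the coordinates of the cell block -/
def ix : (Fin g × Bool → Mt n) ≃L[ℂ] (Ix n g → ℂ) := LinearEquiv.toContinuousLinearEquiv
  { toFun := fun x i => x (i.1, i.2.1) i.2.2.1 i.2.2.2
    invFun := fun y s => P275BC.mt y s.1 s.2
    map_add' := fun _ _ => rfl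
    map_smul' := fun _ _ => rfl
    left_inv := fun _ => rfl
    right_inv := fun _ => rfl }

theorem mt_ix (x : Fin g × Bool → Mt n) (k : Fin g) (b : Bool) : P275BC.mt (ix x) k b = x (k, b) := rfl

theorem mu_ix (ρ : Fin g × Bool → SpecialLinearGroup (Fin n) ℂ) : mu (ix fun s => (ρ s).1) =
    ((List.ofFn fun j => ⁅ρ (j, false), ρ (j, true)⁆).prod : SpecialLinearGroup (Fin n) ℂ).1 := by
  show _ = SpecialLinearGroup.coeMonoidHom _
  rw [map_list_prod, List.map_ofFn, mu]
  congr 2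
  funext k
  simp [mt_ix, commutatorElement_def, inv_def]

theorem mem_range_ep {x : Fin g × Bool → Mt n} :
    x ∈ range (ep : Rep g n d → _) ↔ ix x ∈ Rz n g (zeta n d) := by
  refine ⟨?_, fun h => ?_⟩
  · rintro ⟨ρ, rfl⟩
    exact ⟨fun k b => (ρ.1 (k, b)).2, (mu_ix ρ.1).trans ρ.2⟩
  · let ρ : Fin g × Bool → SpecialLinearGroup (Fin n) ℂ := fun s => ⟨x s, h.1 s.1 s.2⟩
    exact ⟨⟨ρ, (mu_ix ρ).symm.trans h.2⟩, rfl⟩

/-- conjugation of a representation -/
def act (P : SpecialLinearGroup (Fin n) ℂ) (ρ : Rep g n d) : Rep g n d :=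
  ⟨fun s => P * ρ.1 s * P⁻¹, by
    have h := map_list_prod (MulAut.conj P) (List.ofFn fun j => ⁅ρ.1 (j, false), ρ.1 (j, true)⁆)
    simp only [List.map_ofFn, comp_def, map_commutatorElement, MulAut.conj_apply] at h
    rw [← h]
    refine (congrArg (fun M => P.1 * M * (P⁻¹).1) ρ.2).trans ?_
    show _ * _ * _ = _
    rw [mul_smul_comm, mul_one, smul_mul_assoc]
    exact congrArg (fun M => zeta n d • M.1) (mul_inv_cancel P)⟩

theorem ep_act (P : SpecialLinearGroup (Fin n) ℂ) (ρ : Rep g n d) :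
    ep (act P ρ) = cj (SpecialLinearGroup.toGL P) (ep ρ) := rfl

theorem ep_inj : Injective (ep : Rep g n d → _) := fun _ _ e =>
  Subtype.ext (funext fun s => Subtype.ext (congrFun e s))

theorem pt_act (P : SpecialLinearGroup (Fin n) ℂ) (ρ : Rep g n d) : (act P ρ).pt = ρ.pt :=
  (Quot.sound ⟨P, fun _ => rfl⟩).symm

/-- the traces of the short words on the character variety -/
def trX : XB g n d → Cm (NW (Fin g × Bool) n) :=
  Quot.lift (fun ρ => Tr (ep ρ)) fun ρ ρ' ⟨P, h⟩ => by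
    rw [show ρ' = act P ρ from Subtype.ext (funext h), ep_act, Tr_cj]

theorem isReg_trX (k : Fin (NW (Fin g × Bool) n)) : IsReg fun x : XB g n d => trX x k :=
  ⟨_, fun ρ => ev_tr (ep ρ) _⟩

theorem zc_ep : Zc (cA _) (range fun ρ : Rep g n d => co (ep ρ)) := by
  let M : Matrix (Fin n) (Fin n) (MvPolynomial ((Fin g × Bool) × Fin n × Fin n) ℂ) :=
    (List.ofFn fun k => gm (k, false) * gm (k, true) * (gm (k, false)).adjugate *
      (gm (k, true)).adjugate).prod
  have h : ∀ P, Reg (cA _) fun v => ev (co.symm v : Fin g × Bool → Mt n) P :=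
    reg_ev fun k => by simpa only [co.apply_symm_apply] using reg_crd k
  have h1 : ∀ x : Fin g × Bool → Mt n, (∀ s, (x s).det = 1) → mu (ix x) = (ev x).mapMatrix M :=
    fun x hx => by
    rw [map_list_prod, List.map_ofFn, mu]
    congr 2
    funext k
    simp only [Function.comp_apply, map_mul, RingHom.map_adjugate, ev_gm, mt_ix, inv_def, hx,
      Ring.inverse_one, one_smul]
  have h2 : ∀ (x : Fin g × Bool → Mt n) s, ev x (gm s).det = (x s).det := fun x s => by
    rw [RingHom.map_det, ev_gm]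
  rw [show (range fun ρ : Rep g n d => co (ep ρ)) = (⋂ s, {v | ev (co.symm v) (gm s).det - 1 = 0}) ∩
    ⋂ q : Fin n × Fin n, {v | ev (co.symm v) (M q.1 q.2) - (zeta n d • (1 : Mt n)) q.1 q.2 = 0} from ?_]
  · exact .inter (.iInter fun s => ((h _).sub (.const _ _)).zc)
      (.iInter fun s => ((h _).sub (.const _ _)).zc)
  ext v
  obtain ⟨x, rfl⟩ := (co (ι := Fin g × Bool) (n := n)).surjective v
  rw [show (range fun ρ : Rep g n d => co (ep ρ)) = co '' range ep from range_comp _ _,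
    co.injective.mem_set_image, mem_range_ep]
  simp only [mem_inter_iff, mem_iInter, mem_setOf_eq, co.symm_apply_apply, sub_eq_zero, h2]
  exact ⟨fun e => ⟨fun s => e.1 s.1 s.2, fun q => congrFun (congrFun
    ((h1 x fun s => e.1 s.1 s.2).symm.trans e.2) q.1) q.2⟩, fun e => ⟨fun k b => e.1 (k, b),
      (h1 x e.1).trans (Matrix.ext fun a b => e.2 (a, b))⟩⟩

variable (g n d) in
/-- the admissible range -/
class Ok : Prop where
  hg : g ≠ 0
  hn : n ≠ 0
  cop : IsCoprime (n : ℤ) d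

/-- the dimension of the space of representations -/
def dimZ (g n : ℕ) : ℕ := n * n - 1 + 2 * dimR g n

variable [h : Ok g n d]

include h in
variable (g) in
theorem prim : IsPrimitiveRoot (zeta n d) n := by
  rw [zeta, mul_div_assoc]
  exact Complex.isPrimitiveRoot_exp_of_isCoprime d n h.hn h.cop.symm

theorem irr_ep (ρ : Rep g n d) : Irr (ep ρ) := by
  obtain ⟨r, rfl⟩ := Nat.exists_eq_succ_of_ne_zero h.hn
  exact irr_of_sub fun E hE => P275OM.irr (P275QV.gnc_root (prim g))
    (P275QV.rz_sub (mem_range_ep.1 (mem_range_self ρ))) E fun k b => hE (k, b)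

theorem smo_ep (ρ : Rep g n d) : Smo (dimZ g n) (range (ep : Rep g n d → _)) (ep ρ) := by
  obtain ⟨r, rfl⟩ := Nat.exists_eq_succ_of_ne_zero h.hn
  obtain ⟨k, rfl⟩ := Nat.exists_eq_succ_of_ne_zero h.hg
  obtain ⟨c, Φ, h1, h2, h3, h4⟩ := P275QV.rz_eqn (d := dimZ (k + 1) (r + 1)) (prim (k + 1))
    (mem_range_ep.1 (mem_range_self ρ)) (by
      rw [dimZ, dimR, show (r + 1) * (r + 1) - 1 = r * (r + 2) from Nat.sub_eq_of_eq_add (by ring),
        show (r + 1) ^ 2 - 1 = r * (r + 2) from Nat.sub_eq_of_eq_add (by ring), Nat.add_sub_cancel,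
        Nat.succ_eq_add_one]
      ring)
  have h5 := ContinuousLinearEquiv.hasFDerivAt (E := Fin (k + 1) × Bool → Mt (r + 1)) ix (x := ep ρ)
  refine ⟨_, _, _, inferInstance, fun x => Φ (ix x), h2.fun_comp
    (ContinuousLinearEquiv.analyticAt (E := Fin (k + 1) × Bool → Mt (r + 1)) ix _), ?_,
    (h5.continuousAt.eventually h4).mono fun y hy => mem_range_ep.trans hy, ?_⟩
  · rw [show fderiv ℂ (fun x => Φ (ix x)) (ep ρ) = _ from
      (h2.differentiableAt.hasFDerivAt.comp _ h5).fderiv]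
    exact h3.comp ix.surjective
  · rw [ix.toLinearEquiv.finrank_eq, ← h1, finrank_fin_fun, add_comm]

variable (g n d) in
theorem pk : Pk (dimZ g n) (2 * dimR g n) (ep : Rep g n d → _) Rep.pt trX where
  pos := h.hn
  dim := by
    have := Nat.mul_pos (Nat.pos_of_ne_zero h.hn) (Nat.pos_of_ne_zero h.hn)
    rw [dimZ]
    omega
  emb := ⟨(IsEmbedding.piMap fun _ => IsEmbedding.subtypeVal).comp IsEmbedding.subtypeVal, by
    have := zc_ep (g := g) (n := n) (d := d).closed.preimage co.continuous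
    rwa [show (range fun ρ : Rep g n d => co (ep ρ)) = co '' range ep from range_comp _ _,
      co.injective.preimage_image] at this⟩
  inv P ρ :=
    let ⟨P', e⟩ := exists_sl h.hn P
    ⟨act P' ρ, (e _).symm⟩
  irr := irr_ep
  smo := smo_ep
  quo := isQuotientMap_quot_mk
  fib ρ ρ' := ⟨fun e => cj_of_trace (irr_ep ρ) (irr_ep ρ') fun l hl => (Tr_apply _ ⟨l, hl⟩).symm.trans
    ((congrFun (congrArg trX e) _).trans (Tr_apply _ _)), fun ⟨P, e⟩ => by
      obtain ⟨P', e'⟩ := exists_sl (ι := Fin g × Bool) h.hn P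
      rw [ep_inj (e.trans (e' _) : _ = ep (act P' ρ)), pt_act]⟩
  tr _ := rfl

instance csX : ChartedSpace (Cm (2 * dimR g n)) (XB g n d) := (pk g n d).atQ.cs

instance mfX : IsManifold 𝓘(ℂ, Cm (2 * dimR g n)) ω (XB g n d) := (pk g n d).atQ.isManifold

instance csR : ChartedSpace (Cm (dimZ g n)) (Rep g n d) := (pk g n d).atR.cs

instance mfR : IsManifold 𝓘(ℂ, Cm (dimZ g n)) ω (Rep g n d) := (pk g n d).atR.isManifold

theorem embX : Emb (2 * dimR g n) (NW (Fin g × Bool) n) (trX : XB g n d → _)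
    (range (trX : XB g n d → _)) :=
  atl_emb _ (pk g n d).inj

theorem embR : Emb (dimZ g n) (NE (Fin g × Bool) n) (fun ρ : Rep g n d => co (ep ρ))
    (range fun ρ : Rep g n d => co (ep ρ)) :=
  atl_emb _ (pk g n d).indR.injective

theorem closedX : IsClosedEmbedding (trX : XB g n d → _) := (pk g n d).closedEmb

instance : T2Space (XB g n d) := closedX.isEmbedding.t2Space

instance : SecondCountableTopology (XB g n d) := closedX.isEmbedding.secondCountableTopology

instance : LocallyCompactSpace (XB g n d) := closedX.locallyCompactSpace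

theorem hol_pt : HolM (dimZ g n) (2 * dimR g n) (Rep.pt : Rep g n d → _) := (pk g n d).hol embR embX

theorem sbm_pt (ρ : Rep g n d) : Sbm (dimZ g n) (2 * dimR g n) Rep.pt ρ := (pk g n d).sbm embR embX ρ

variable (g n d) in
/-- the compactification of the space of representations -/
def cR : Cp (dimZ g n) (Rep g n d) := ((pk g n d).cp embR embX zc_ep).choose

variable (g n d) in
/-- the compactification of the character variety -/
def cX : Cp (2 * dimR g n) (XB g n d) := ((pk g n d).cp embR embX zc_ep).choose_spec.choose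

theorem c_spec : (cR g n d).Y.Prj ∧ (cX g n d).Y.Prj ∧ (∀ k, Reg (cR g n d) fun a => co (ep a) k) ∧
    (∀ k, Reg (cX g n d) fun x => trX x k) ∧ Alg (cR g n d) (cX g n d) Rep.pt ∧
    ∀ t, (Reg (cR g n d) fun a => t a.pt) → Reg (cX g n d) t :=
  ((pk g n d).cp embR embX zc_ep).choose_spec.choose_spec

theorem alg_pt : Alg (cR g n d) (cX g n d) Rep.pt := c_spec.2.2.2.2.1

theorem reg_ep (s : Fin g × Bool) (a b : Fin n) : Reg (cR g n d) fun ρ => ep ρ s a b := by
  simpa only [co_apply] using (c_spec (g := g) (n := n) (d := d)).2.2.1 (Fintype.equivFin _ (s, a, b))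

theorem reg_of_isReg (t : XB g n d → ℂ) (ht : IsReg t) : Reg (cX g n d) t :=
  let ⟨P, e⟩ := ht
  c_spec.2.2.2.2.2 t ((funext e).symm ▸ reg_ev c_spec.2.2.1 P)

/-- a map to the character variety is algebraic if the traces are regular -/
theorem alg_to {m : ℕ} {U : Type} [TopologicalSpace U] [ChartedSpace (Cm m) U]
    [IsManifold 𝓘(ℂ, Cm m) ω U] {c : Cp m U} {f : U → XB g n d}
    (hf : ∀ k, Reg c fun x => trX (f x) k) : Alg c (cX g n d) f :=
  alg_of_reg c_spec.2.2.2.1 closedX.isInducing embX.imm hf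

variable (g n d) in
/-- **A compactification exists** -/
theorem exists_cpt : Nonempty (Cpt g n d) :=
  cpt_of_cp (cX g n d) c_spec.2.1 reg_of_isReg isReg_trX embX.imm

/-- **Every compactification of the statement is a good one, equivalent to `cX`** -/
theorem cp_cpt (K : Cpt g n d) : ∃ e : Emb (2 * dimR g n) (2 * dimR g n) K.j (off K.G),
    Alg (cptCp K e) (cX g n d) (fun x => x) ∧ Alg (cX g n d) (cptCp K e) fun x => x :=
  cp_of_cpt (cX g n d) reg_of_isReg isReg_trX embX.imm closedX.isInducing K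

end Vale.Agent.P275XB
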