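import Mathlib

/-!
P275 (helper22): irreducible tuples of matrices are determined by the traces of short words.
-/

set_option linter.all false

open Submodule Set Matrix

noncomputable section

namespace Vale.Agent.P275XB

/-- square matrices -/
abbrev Mt (n : ℕ) : Type := Matrix (Fin n) (Fin n) ℂ

section alg

variable {ι A B : Type} [Ring A] [Algebra ℂ A] [Ring B] [Algebra ℂ B]

/-- the value of a word -/
def wd (x : ι → A) (l : List ι) : A := (l.map x).prod

@[simp] theorem wd_nil (x : ι → A) : wd x [] = 1 := rfl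

@[simp] theorem wd_cons (x : ι → A) (i : ι) (l : List ι) : wd x (i :: l) = x i * wd x l := by
  simp [wd]

theorem wd_append (x : ι → A) (l l' : List ι) : wd x (l ++ l') = wd x l * wd x l' := by simp [wd]

theorem map_wd {F : Type} [FunLike F A B] [MonoidHomClass F A B] (p : F) (x : ι → A) (l : List ι) :
    p (wd x l) = wd (fun i => p (x i)) l := by
  induction l with
  | nil => simp
  | cons i l ih => simp [ih]

/-- the words span -/
def Irr (x : ι → A) : Prop := span ℂ (range (wd x)) = ⊤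

/-- the span of the words of length at most `k` -/
def Sp (x : ι → A) (k : ℕ) : Submodule ℂ A := span ℂ (wd x '' {l | l.length ≤ k})

theorem wd_mem (x : ι → A) {l : List ι} {k : ℕ} (h : l.length ≤ k) : wd x l ∈ Sp x k :=
  subset_span ⟨l, h, rfl⟩

theorem Sp_mono (x : ι → A) : Monotone (Sp x) := fun _ _ h =>
  span_mono (image_mono fun _ e => le_trans e h)

theorem Sp_le {x : ι → A} {k : ℕ} {S : Submodule ℂ A} (h : ∀ l, l.length ≤ k → wd x l ∈ S) :
    Sp x k ≤ S := span_le.2 (by rintro _ ⟨l, e, rfl⟩; exact h l e)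

theorem mul_Sp {x : ι → A} {k : ℕ} {a : A} (h : a ∈ Sp x k) (l : List ι) :
    wd x l * a ∈ Sp x (l.length + k) :=
  Sp_le (S := (Sp x _).comap (LinearMap.mulLeft ℂ (wd x l))) (fun u e => by
    show wd x l * wd x u ∈ Sp x _
    rw [← wd_append]
    exact wd_mem x (by simpa using e)) h

theorem Sp_mul {x : ι → A} {k : ℕ} {a : A} (h : a ∈ Sp x k) (l : List ι) :
    a * wd x l ∈ Sp x (k + l.length) :=
  Sp_le (S := (Sp x _).comap (LinearMap.mulRight ℂ (wd x l))) (fun u e => by
    show wd x u * wd x l ∈ Sp x _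
    rw [← wd_append]
    exact wd_mem x (by simpa using e)) h

theorem gen_Sp {x : ι → A} {k : ℕ} {a : A} (h : a ∈ Sp x k) (i : ι) : x i * a ∈ Sp x (k + 1) := by
  simpa [add_comm] using mul_Sp h [i]

/-- short words suffice -/
theorem mem_Sp [Module.Finite ℂ A] (x : ι → A) (l : List ι) :
    wd x l ∈ Sp x (Module.finrank ℂ A) := by
  obtain ⟨k, hk, h⟩ : ∃ k ≤ Module.finrank ℂ A, Sp x (k + 1) ≤ Sp x k := by
    by_contra! h
    have : ∀ k ≤ Module.finrank ℂ A + 1, k ≤ Module.finrank ℂ (Sp x k) := fun k hk => by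
      induction k with
      | zero => exact Nat.zero_le _
      | succ k ih =>
        exact (ih (by omega)).trans_lt (finrank_lt_finrank_of_lt
          (lt_of_le_not_ge (Sp_mono x k.le_succ) (h k (by omega))))
    exact absurd ((this _ le_rfl).trans (finrank_le _)) (by omega)
  refine Sp_mono x hk ?_
  induction l with
  | nil => exact wd_mem x (Nat.zero_le _)
  | cons i l ih => rw [wd_cons]; exact h (gen_Sp ih i)

theorem Irr.Sp [Module.Finite ℂ A] {x : ι → A} (h : Irr x) : Sp x (Module.finrank ℂ A) = ⊤ :=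
  top_le_iff.1 (h.ge.trans (span_le.2 (by rintro _ ⟨l, rfl⟩; exact mem_Sp x l)))

theorem Irr.ind {x : ι → A} (h : Irr x) {S : Submodule ℂ A} (e : ∀ l, wd x l ∈ S) (a : A) : a ∈ S :=
  (span_le.2 (range_subset_iff.2 e) : _ ≤ S) (h.ge trivial)

/-- a multiplicative section -/
theorem exists_sec [Module.Finite ℂ B] (p : A →ₐ[ℂ] B) (z : ι → A) (h : Irr fun i => p (z i))
    (inj : ∀ a ∈ Sp z (Module.finrank ℂ B + 1), p a = 0 → a = 0) :
    ∃ s : B →ₗ[ℂ] A, (∀ a, p (s a) = a) ∧ (∀ a b, s (a * b) = s a * s b) ∧ s 1 = 1 ∧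
      ∀ i, s (p (z i)) = z i := by
  obtain ⟨s, hs⟩ := (p.toLinearMap ∘ₗ (Sp z (Module.finrank ℂ B)).subtype).exists_rightInverse_of_surjective
    (top_le_iff.1 (h.Sp.ge.trans (Sp_le fun l e => ⟨⟨_, wd_mem z e⟩, map_wd p z l⟩)))
  have h1 : ∀ a, p (s a) = a := LinearMap.congr_fun hs
  have u : ∀ a ∈ Sp z (Module.finrank ℂ B + 1), (s (p a) : A) = a := fun a ha =>
    sub_eq_zero.1 (inj _ (sub_mem (Sp_mono z (Nat.le_succ _) (s _).2) ha) (by rw [map_sub, h1, sub_self]))
  have h2 : (s 1 : A) = 1 := by simpa using u 1 (wd_mem z (l := []) (Nat.zero_le _))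
  have h3 : ∀ l a, (s (wd (fun i => p (z i)) l * a) : A) = wd z l * s a := fun l a => by
    induction l with
    | nil => simp
    | cons i l ih =>
      rw [wd_cons, wd_cons, mul_assoc, mul_assoc, ← ih, ← u _ (gen_Sp (s _).2 i), map_mul p, h1]
  refine ⟨(Sp z _).subtype ∘ₗ s, h1, fun a b => ?_, h2, fun i => by simpa [h2] using h3 [i] 1⟩
  refine h.ind (S := LinearMap.eqLocus (((Sp z _).subtype ∘ₗ s) ∘ₗ LinearMap.mulRight ℂ b)
    (LinearMap.mulRight ℂ (s b : A) ∘ₗ ((Sp z _).subtype ∘ₗ s))) (fun l => ?_) a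
  show (s (_ * b) : A) = s _ * s b
  rw [h3, ← mul_one (wd (fun i => p (z i)) l), h3, h2, mul_one]

end alg

variable {ι : Type} {n : ℕ}

theorem finrank_Mt (n : ℕ) : Module.finrank ℂ (Mt n) = n * n := by simp [Module.finrank_matrix]

theorem Irr.eq_zero {x : ι → Mt n} (h : Irr x) {a : Mt n}
    (e : ∀ l, l.length ≤ n * n → (a * wd x l).trace = 0) : a = 0 := by
  refine ext_iff_trace_mul_right.2 fun b => ?_
  rw [zero_mul, trace_zero]
  exact Sp_le (S := LinearMap.ker (traceLinearMap _ ℂ ℂ ∘ₗ LinearMap.mulLeft ℂ a)) e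
    (by rw [← finrank_Mt, h.Sp]; trivial)

theorem swap (φ : Mt n →ₗ[ℂ] Mt n) (o : Fin n) (c a : Mt n) :
    ∑ j, φ (a * single j o 1) * c * single o j 1 = (∑ j, φ (single j o 1) * c * single o j 1) * a := by
  have h1 : ∀ j, a * single j o 1 = ∑ k, a k j • single k o (1 : ℂ) := fun j => by
    ext p q
    simp [mul_apply, Matrix.sum_apply, single_apply, ite_and]
  have h2 : ∀ k, single o k 1 * a = ∑ j, a k j • single o j (1 : ℂ) := fun k => by
    ext p q
    simp [mul_apply, Matrix.sum_apply, single_apply, ite_and]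
  simp only [Finset.sum_mul, mul_assoc, h1, h2, map_sum, map_smul, Finset.mul_sum, smul_mul_assoc,
    mul_smul_comm]
  exact Finset.sum_comm

theorem sum_single (o : Fin n) : ∑ j, single j o (1 : ℂ) * single o j 1 = (1 : Mt n) := by
  simp only [single_mul_single_same, mul_one]
  exact sum_single_one

/-- simultaneous conjugation -/
def cj (g : GL (Fin n) ℂ) (x : ι → Mt n) : ι → Mt n := fun i => g * x i * (g⁻¹ : GL (Fin n) ℂ)

theorem cj_one (x : ι → Mt n) : cj 1 x = x := funext fun i => by simp [cj]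

theorem cj_mul (g h : GL (Fin n) ℂ) (x : ι → Mt n) : cj (g * h) x = cj g (cj h x) :=
  funext fun i => by simp only [cj, _root_.mul_inv_rev, Units.val_mul, mul_assoc]

theorem cj_inv (g : GL (Fin n) ℂ) (x : ι → Mt n) : cj g⁻¹ (cj g x) = x := by
  rw [← cj_mul, inv_mul_cancel, cj_one]

theorem wd_cj (g : GL (Fin n) ℂ) (x : ι → Mt n) (l : List ι) :
    wd (cj g x) l = g * wd x l * (g⁻¹ : GL (Fin n) ℂ) := by
  induction l with
  | nil => simp
  | cons i l ih => simp only [wd_cons, ih, cj, mul_assoc, Units.inv_mul_cancel_left]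

theorem trace_wd_cj (g : GL (Fin n) ℂ) (x : ι → Mt n) (l : List ι) :
    (wd (cj g x) l).trace = (wd x l).trace := by rw [wd_cj, trace_units_conj]

theorem eq_cj_iff {g : GL (Fin n) ℂ} {x y : ι → Mt n} : y = cj g x ↔ ∀ i, y i * g = g * x i :=
  funext_iff.trans (forall_congr' fun _ => (Units.eq_mul_inv_iff_mul_eq _))

theorem Irr.cj {x : ι → Mt n} (h : Irr x) (g : GL (Fin n) ℂ) : Irr (cj g x) :=
  top_le_iff.1 fun a _ => by
    have := h.ind (S := (span ℂ (range (wd (P275XB.cj g x)))).comap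
      (LinearMap.mulRight ℂ ((g⁻¹ : GL (Fin n) ℂ) : Mt n) ∘ₗ LinearMap.mulLeft ℂ (g : Mt n)))
      (fun l => subset_span ⟨l, wd_cj g x l⟩) ((g⁻¹ : GL (Fin n) ℂ) * a * g)
    simpa [mul_assoc] using this

/-- an intertwiner out of an irreducible tuple is zero or invertible -/
theorem Irr.unit {x y : ι → Mt n} (h : Irr x) {g : Mt n} (e : ∀ i, y i * g = g * x i) (h0 : g ≠ 0) :
    IsUnit g := by
  refine (isUnit_iff_isUnit_det g).2 (isUnit_iff_ne_zero.2 fun hd => h0 ?_)
  obtain ⟨v, hv, e0⟩ := exists_mulVec_eq_zero_iff.2 hd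
  obtain ⟨j, hj⟩ := Function.ne_iff.1 hv
  have e1 : ∀ l, wd y l * g = g * wd x l := fun l => by
    induction l with
    | nil => simp
    | cons i l ih => rw [wd_cons, wd_cons, mul_assoc, ih, ← mul_assoc, e, mul_assoc]
  have e2 : ∀ a : Mt n, (g * a) *ᵥ v = 0 := fun a =>
    h.ind (S := LinearMap.ker ((mulVecBilin ℂ ℂ).flip v ∘ₗ LinearMap.mulLeft ℂ g)) (fun l => by
      show (g * wd x l) *ᵥ v = 0
      rw [← e1, ← mulVec_mulVec, e0, mulVec_zero]) a
  ext p q
  simpa [mulVec, dotProduct, mul_apply, single_apply, ite_and, show v j ≠ 0 from hj]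
    using congrFun (e2 (single q j 1)) p

/-- Schur -/
theorem Irr.schur {x : ι → Mt n} (h : Irr x) {g : Mt n} (e : ∀ i, x i * g = g * x i) :
    ∃ c : ℂ, g = c • 1 := by
  have : g ∈ Set.center (Mt n) := Semigroup.mem_center_iff.2 fun a =>
    h.ind (S := LinearMap.eqLocus (LinearMap.mulRight ℂ g) (LinearMap.mulLeft ℂ g)) (fun l => by
      show wd x l * g = g * wd x l
      induction l with
      | nil => simp
      | cons i l ih => rw [wd_cons, mul_assoc, ih, ← mul_assoc, e, mul_assoc]) a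
  rw [Matrix.center_eq_range] at this
  obtain ⟨c, rfl⟩ := this
  exact ⟨c, by rw [scalar_apply, smul_one_eq_diagonal]⟩

/-- **Irreducible tuples with the same traces are conjugate** -/
theorem cj_of_trace {x y : ι → Mt n} (hx : Irr x) (hy : Irr y)
    (h : ∀ l, l.length ≤ 2 * (n * n) + 1 → (wd x l).trace = (wd y l).trace) : ∃ g, y = cj g x := by
  rcases isEmpty_or_nonempty (Fin n) with _ | ⟨⟨o⟩⟩
  · exact ⟨1, Subsingleton.elim _ _⟩
  obtain ⟨s, h1, h2, h3, h4⟩ := exists_sec (AlgHom.fst ℂ (Mt n) (Mt n)) (fun i => (x i, y i)) hx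
    fun a ha e => Prod.ext e (hy.eq_zero fun l hl => by
      have := Sp_le (S := LinearMap.eqLocus (traceLinearMap _ ℂ ℂ ∘ₗ LinearMap.fst ℂ _ _)
        (traceLinearMap _ ℂ ℂ ∘ₗ LinearMap.snd ℂ _ _)) (fun u hu => by
          show trace (AlgHom.fst ℂ (Mt n) (Mt n) _) = trace (AlgHom.snd ℂ (Mt n) (Mt n) _)
          rw [map_wd, map_wd]
          exact h u (by rw [finrank_Mt] at hu; omega)) (Sp_mul ha l)
      have e1 : trace (a.1 * AlgHom.fst ℂ (Mt n) (Mt n) _) =
        trace (a.2 * AlgHom.snd ℂ (Mt n) (Mt n) _) := this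
      rw [show a.1 = 0 from e, zero_mul, trace_zero, map_wd] at e1
      exact e1.symm)
  let φ := LinearMap.snd ℂ _ _ ∘ₗ s
  have m : ∀ a b, φ (a * b) = φ a * φ b := fun a b => congrArg Prod.snd (h2 a b)
  obtain ⟨c, hc⟩ : ∃ c, ∑ j, φ (single j o 1) * c * single o j 1 ≠ 0 := by
    by_contra! h0
    have e : φ (single o o 1) = 0 := by
      ext p q
      simpa [Matrix.sum_apply, mul_apply, single_apply, ite_and]
        using congrFun (congrFun (h0 (single q o 1)) p) o
    have e1 : φ 1 = 0 := by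
      rw [← sum_single o, map_sum]
      refine Finset.sum_eq_zero fun j _ => ?_
      rw [show single j o (1 : ℂ) = single j o 1 * single o o 1 by simp, m, m, e, mul_zero, zero_mul]
    haveI : Nonempty (Fin n) := ⟨o⟩
    exact one_ne_zero ((congrArg Prod.snd h3).symm.trans e1)
  have e : ∀ i, y i * (∑ j, φ (single j o 1) * c * single o j 1) =
      (∑ j, φ (single j o 1) * c * single o j 1) * x i := fun i => by
    rw [← swap, Finset.mul_sum]
    simp only [m, ← mul_assoc]
    rw [show φ (x i) = y i from congrArg Prod.snd (h4 i)]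
  obtain ⟨g, hg⟩ := hx.unit e hc
  exact ⟨g, eq_cj_iff.2 (hg ▸ e)⟩

open TrivSqZeroExt in
/-- **A first order deformation with constant traces is trivial** -/
theorem ad_of_trace {x v : ι → Mt n} (hx : Irr x) (h : ∀ l, l.length ≤ 2 * (n * n) + 1 →
    (wd (fun i => (inl (x i) + inr (v i) : TrivSqZeroExt (Mt n) (Mt n))) l).snd.trace = 0) :
    ∃ ξ : Mt n, ∀ i, v i = ξ * x i - x i * ξ := by
  rcases isEmpty_or_nonempty (Fin n) with _ | ⟨⟨o⟩⟩
  · exact ⟨0, fun _ => Subsingleton.elim _ _⟩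
  have e0 : (fun i => fstHom ℂ (Mt n) (Mt n) (inl (x i) + inr (v i))) = x := funext fun i => by simp
  obtain ⟨s, h1, h2, h3, h4⟩ := exists_sec (fstHom ℂ (Mt n) (Mt n)) (fun i => inl (x i) + inr (v i))
    (e0.symm ▸ hx) fun a ha e => TrivSqZeroExt.ext e (hx.eq_zero fun l hl => by
      have := Sp_le (S := LinearMap.ker (traceLinearMap _ ℂ ℂ ∘ₗ
        (sndHom (Mt n) (Mt n)).restrictScalars ℂ))
        (fun u hu => h u (by rw [finrank_Mt] at hu; omega)) (Sp_mul ha l)
      have e1 : trace (a * _).snd = 0 := this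
      rw [snd_mul, show a.fst = 0 from e, zero_smul, zero_add, op_smul_eq_mul,
        show ∀ b : TrivSqZeroExt (Mt n) (Mt n), b.fst = fstHom ℂ _ _ b from fun _ => rfl, map_wd,
        e0] at e1
      exact e1)
  let δ := (sndHom (Mt n) (Mt n)).restrictScalars ℂ ∘ₗ s
  have m : ∀ a b, δ (a * b) = a * δ b + δ a * b := fun a b => by
    show (s (a * b)).snd = _
    rw [h2, snd_mul, show (s a).fst = a from h1 a, show (s b).fst = b from h1 b]
    rfl
  refine ⟨∑ j, δ (single j o 1) * 1 * single o j 1, fun i => ?_⟩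
  rw [← swap, Finset.mul_sum, ← Finset.sum_sub_distrib]
  simp only [m, mul_one, add_mul, mul_assoc, add_sub_cancel_left]
  rw [← Finset.mul_sum, sum_single, mul_one]
  show _ = (s (x i)).snd
  simpa using (congrArg snd (h4 i)).symm

end Vale.Agent.P275XB
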