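import Vale.Agent.P275XB.Prp

/-!
P275 (helper22): local slices for simultaneous conjugation.
-/

set_option linter.all false

open Set Filter Function Module
open scoped Topology

noncomputable section

namespace Vale.Agent.P275XB

section ift

variable {E F : Type} [NormedAddCommGroup E] [NormedSpace ℂ E] [FiniteDimensional ℂ E]
  [NormedAddCommGroup F] [NormedSpace ℂ F] [FiniteDimensional ℂ F]

/-- the inverse function theorem -/
theorem ift {f : E → F} {a : E} (h : AnalyticAt ℂ f a) (hi : Injective (fderiv ℂ f a))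
    (hd : finrank ℂ E = finrank ℂ F) : ∃ Θ : OpenPartialHomeomorph E F, (Θ : E → F) = f ∧
      a ∈ Θ.source ∧ AnalyticAt ℂ Θ.symm (f a) := by
  haveI := FiniteDimensional.complete ℂ E
  haveI := FiniteDimensional.complete ℂ F
  let e := ((fderiv ℂ f a : E →ₗ[ℂ] F).linearEquivOfInjective hi hd).toContinuousLinearEquiv
  have h1 : HasFDerivAt f (e : E →L[ℂ] F) a := h.differentiableAt.hasFDerivAt
  have h2 : ContDiffAt ℂ ⊤ f a := h.contDiffAt
  exact ⟨h2.toOpenPartialHomeomorph _ h1 (by simp), rfl,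
    h2.mem_toOpenPartialHomeomorph_source h1 (by simp), (h2.to_localInverse h1 (by simp)).analyticAt⟩

/-- the zero set of a submersion has a local parametrisation -/
theorem param {Φ : E → F} {x : E} {k : ℕ} (h : AnalyticAt ℂ Φ x) (h0 : Φ x = 0)
    (hs : Surjective (fderiv ℂ Φ x)) (hd : finrank ℂ E = finrank ℂ F + k) :
    ∃ s : (Fin k → ℂ) → E, AnalyticAt ℂ s 0 ∧ s 0 = x ∧ Injective (fderiv ℂ s 0) ∧
      map s (𝓝 0) = 𝓝[{y | Φ y = 0}] x := by
  let D : E →ₗ[ℂ] F := fderiv ℂ Φ x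
  have h1 : finrank ℂ (LinearMap.ker D) = finrank ℂ (Fin k → ℂ) := by
    have := D.finrank_range_add_finrank_ker
    rw [LinearMap.range_eq_top.2 hs, finrank_top] at this
    rw [finrank_fin_fun]
    omega
  obtain ⟨p, hp⟩ := (LinearMap.ker D).subtype.exists_leftInverse_of_injective (Submodule.ker_subtype _)
  let L : E →L[ℂ] (Fin k → ℂ) :=
    LinearMap.toContinuousLinearMap ((LinearEquiv.ofFinrankEq _ _ h1).toLinearMap ∘ₗ p)
  have h2 : AnalyticAt ℂ (fun u => L (u - x)) x :=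
    (L.analyticAt _).fun_comp (f := fun u => u - x) (analyticAt_id.sub analyticAt_const)
  have h3 : HasFDerivAt (fun u => (Φ u, L (u - x))) ((fderiv ℂ Φ x).prod L) x :=
    h.differentiableAt.hasFDerivAt.prodMk
      ((L.hasFDerivAt.comp x ((hasFDerivAt_id x).sub_const x)).congr_fderiv (by ext; rfl))
  obtain ⟨Θ, e1, e2, e3⟩ := ift (h.prod h2) (by
    rw [h3.fderiv]
    refine (injective_iff_map_eq_zero _).2 fun v hv => ?_
    have h4 := (map_eq_zero_iff _ (LinearEquiv.ofFinrankEq _ _ h1).injective).1 (congrArg Prod.snd hv)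
    exact congrArg Subtype.val
      ((LinearMap.congr_fun hp ⟨v, congrArg Prod.fst hv⟩).symm.trans h4)) (by simp [hd])
  have e0 : Θ x = (0, 0) := by simp [e1, h0]
  rw [h0, sub_self, map_zero] at e3
  have s0 : Θ.symm (0, 0) = x := e0 ▸ Θ.left_inv e2
  have s1 : AnalyticAt ℂ (fun z => Θ.symm (0, z)) 0 :=
    e3.fun_comp (f := fun z => (0, z)) (analyticAt_const.prod analyticAt_id)
  have s2 : ∀ᶠ z in 𝓝 0, Θ (Θ.symm (0, z)) = (0, z) :=
    ((Continuous.prodMk_right 0).tendsto 0).eventually (e0 ▸ Θ.eventually_right_inverse' e2)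
  rw [e1] at s2
  refine ⟨_, s1, s0, ?_, le_antisymm (tendsto_nhdsWithin_iff.2 ⟨s0 ▸ s1.continuousAt.tendsto,
    s2.mono fun z e => congrArg Prod.fst e⟩) fun U hU => ?_⟩
  · have s3 := (L.hasFDerivAt.comp 0 (s1.differentiableAt.hasFDerivAt.sub_const x)).unique
      ((hasFDerivAt_id 0).congr_of_eventuallyEq (s2.mono fun z e => congrArg Prod.snd e))
    exact LeftInverse.injective (g := L) (DFunLike.congr_fun s3)
  · have s4 : Tendsto (fun u => L (u - x)) (𝓝 x) (𝓝 0) := by simpa using h2.continuousAt.tendsto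
    filter_upwards [self_mem_nhdsWithin, nhdsWithin_le_nhds (Θ.eventually_left_inverse e2),
      nhdsWithin_le_nhds (s4 hU)] with y a b c
    rw [← b, e1]
    show Θ.symm (Φ y, _) ∈ U
    rw [show Φ y = 0 from a]
    exact c

end ift

variable {ι A : Type} [Fintype ι] [NormedRing A] [NormedAlgebra ℂ A]

theorem an_wd (l : List ι) (x : ι → A) : AnalyticAt ℂ (fun y : ι → A => wd y l) x := by
  induction l with
  | nil => exact analyticAt_const
  | cons i l ih =>
    simp only [wd_cons]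
    exact ((ContinuousLinearMap.proj (R := ℂ) (φ := fun _ => A) i).analyticAt x).mul ih

open TrivSqZeroExt in
theorem fderiv_wd (l : List ι) (x v : ι → A) : fderiv ℂ (fun y : ι → A => wd y l) x v =
    (wd (fun i => (inl (x i) + inr (v i) : TrivSqZeroExt A A)) l).snd := by
  induction l with
  | nil => simp
  | cons i l ih =>
    have h : fderiv ℂ (fun y : ι → A => y i * wd y l) x = _ :=
      ((hasFDerivAt_apply (𝕜 := ℂ) i x).mul' (an_wd l x).differentiableAt.hasFDerivAt).fderiv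
    have e : (wd (fun i => (inl (x i) + inr (v i) : TrivSqZeroExt A A)) l).fst = wd x l :=
      (map_wd (fstHom ℂ A A) _ l).trans (congrArg (wd · l) (funext fun i => by simp))
    simp only [wd_cons, snd_mul, ← ih, e, h]
    simp

/-- the infinitesimal action -/
def ad (x : ι → A) : A →ₗ[ℂ] ι → A :=
  LinearMap.pi fun i => LinearMap.mulRight ℂ (x i) - LinearMap.mulLeft ℂ (x i)

theorem ad_apply (x : ι → A) (ξ : A) (i : ι) : ad x ξ i = ξ * x i - x i * ξ := rfl

/-- the action near the identity -/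
def ac (p : A × (ι → A)) : ι → A := fun i => (1 + p.1) * p.2 i * Ring.inverse (1 + p.1)

theorem ac_zero (x : ι → A) : ac (0, x) = x := funext fun i => by simp [ac]

variable [FiniteDimensional ℂ A]

theorem ac_near : ∀ᶠ ξ in 𝓝 (0 : A), ∃ g : Aˣ, (g : A) = 1 + ξ ∧
    ∀ u : ι → A, ac (ξ, u) = fun i => g * u i * (g⁻¹ : Aˣ) := by
  haveI := FiniteDimensional.complete ℂ A
  have h : Tendsto (fun ξ : A => 1 + ξ) (𝓝 0) (𝓝 1) :=
    (continuous_const.add continuous_id).tendsto' _ _ (add_zero _)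
  filter_upwards [h (Units.isOpen.mem_nhds isUnit_one)] with ξ ⟨g, hg⟩
  exact ⟨g, hg, fun u => funext fun i => by
    rw [ac, ← show (g : A) = 1 + ξ from hg, Ring.inverse_unit]⟩

theorem ac_der (x : ι → A) : ∃ D : A × (ι → A) →L[ℂ] ι → A,
    HasStrictFDerivAt ac D (0, x) ∧ ∀ ξ u, D (ξ, u) = ad x ξ + u := by
  haveI := FiniteDimensional.complete ℂ A
  have h1 : HasStrictFDerivAt (fun p : A × (ι → A) => 1 + p.1) _ (0, x) :=
    (hasStrictFDerivAt_fst (𝕜 := ℂ)).const_add 1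
  have h0 := (analyticAt_inverse (𝕜 := ℂ) (1 : Aˣ)).hasStrictFDerivAt
  rw [(hasFDerivAt_ringInverse (𝕜 := ℂ) (1 : Aˣ)).fderiv, show ((1 : Aˣ) : A) = 1 + 0 by simp] at h0
  have h2 := HasStrictFDerivAt.comp ((0 : A), x) (g := Ring.inverse) h0 h1
  have h3 := fun i => (h1.mul' (HasStrictFDerivAt.comp ((0 : A), x) (g := fun u : ι → A => u i)
    (hasStrictFDerivAt_apply i x) hasStrictFDerivAt_snd)).mul' h2
  refine ⟨_, hasStrictFDerivAt_pi.2 h3, fun ξ u => funext fun i => ?_⟩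
  simp [ad_apply]
  abel

/-- **Slice theorem** -/
theorem slice {W : Type} [NormedAddCommGroup W] [NormedSpace ℂ W]
    [FiniteDimensional ℂ W] {Z : Set (ι → A)}
    (hZ : ∀ g : Aˣ, ∀ y ∈ Z, (fun i => g * y i * (g⁻¹ : Aˣ)) ∈ Z) {x : ι → A}
    (hx : x ∈ Z) {Φ : (ι → A) → W} (h : AnalyticAt ℂ Φ x)
    (hs : Surjective (fderiv ℂ Φ x)) (he : ∀ᶠ y in 𝓝 x, y ∈ Z ↔ Φ y = 0) {d : ℕ}
    (hd : finrank ℂ (ι → A) = finrank ℂ W + finrank ℂ (LinearMap.range (ad x)) + d) :
    ∃ s : (Fin d → ℂ) → ι → A, AnalyticAt ℂ s 0 ∧ s 0 = x ∧ (∀ᶠ z in 𝓝 0, s z ∈ Z) ∧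
      (∀ v ξ, fderiv ℂ s 0 v = ad x ξ → v = 0) ∧
      ∀ U ∈ 𝓝 ((1, 0) : A × (Fin d → ℂ)), ∀ᶠ y in 𝓝 x, y ∈ Z →
        ∃ (g : Aˣ) (z : Fin d → ℂ), ((g : A), z) ∈ U ∧ y = fun i => g * s z i * (g⁻¹ : Aˣ) := by
  haveI := FiniteDimensional.complete ℂ A
  obtain ⟨D, h1, h2⟩ := ac_der x
  obtain ⟨p, hp⟩ := (LinearMap.range (ad x)).subtype.exists_leftInverse_of_injective
    (Submodule.ker_subtype _)
  replace hp : ∀ r : LinearMap.range (ad x), p r = r := LinearMap.congr_fun hp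
  let P := LinearMap.toContinuousLinearMap p
  have h0 := he.self_of_nhds.1 hx
  have h3 : ∀ ξ, fderiv ℂ Φ x (ad x ξ) = 0 := fun ξ => by
    have k1 : HasFDerivAt (fun ξ => ac (ξ, x)) _ 0 :=
      HasFDerivAt.comp (g := ac) (f := fun ξ => (ξ, x)) 0 h1.hasFDerivAt
        (hasFDerivAt_prodMk_left (𝕜 := ℂ) (0 : A) x)
    have k2 := (HasFDerivAt.comp 0 (g := Φ) (f := fun ξ => ac (ξ, x)) (by
      rw [ac_zero]; exact h.differentiableAt.hasFDerivAt) k1).unique
      ((hasFDerivAt_const (0 : W) 0).congr_of_eventuallyEq (by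
        filter_upwards [ac_near (ι := ι), (k1.continuousAt.tendsto.mono_right
          (by rw [ac_zero])).eventually he] with ξ ⟨g, _, a⟩ b
        exact b.1 ((a x).symm ▸ hZ g x hx)))
    simpa [h2] using DFunLike.congr_fun k2 ξ
  have h4 : AnalyticAt ℂ (fun u => P (u - x)) x :=
    (P.analyticAt _).fun_comp (f := fun u => u - x) (analyticAt_id.sub analyticAt_const)
  have h5 : HasStrictFDerivAt (fun u => P (u - x)) P x :=
    (P.hasStrictFDerivAt.comp x ((hasStrictFDerivAt_id x).sub_const x)).congr_fderiv (by ext; rfl)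
  obtain ⟨s, s1, s2, s3, s4⟩ := param (k := d) (h.prod h4) (by simp [h0]) (by
      rw [(h.differentiableAt.hasFDerivAt.prodMk h5.hasFDerivAt).fderiv]
      rintro ⟨w, r⟩
      obtain ⟨v, rfl⟩ := hs w
      obtain ⟨ξ, hξ⟩ := (r - p v).2
      refine ⟨v + ad x ξ, Prod.ext (((fderiv ℂ Φ x).map_add _ _).trans (by rw [h3, add_zero])) ?_⟩
      show p _ = r
      rw [map_add, hξ, hp, add_sub_cancel]) (by rw [finrank_prod, hd])
  have s5 := tendsto_nhdsWithin_iff.1 s4.le
  refine ⟨s, s1, s2, ?_, fun v ξ e => s3 ?_, fun U hU => ?_⟩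
  · filter_upwards [s5.2, s5.1.eventually he] with z a b
    exact b.2 (congrArg Prod.fst a)
  · have k := DFunLike.congr_fun ((P.hasFDerivAt.comp 0
      (s1.differentiableAt.hasFDerivAt.sub_const x)).unique
        ((hasFDerivAt_const (0 : LinearMap.range (ad x)) 0).congr_of_eventuallyEq
          (s5.2.mono fun z a => congrArg Prod.snd a))) v
    have k' : p (fderiv ℂ s 0 v) = 0 := k
    rw [e] at k'
    rw [map_zero, e]
    exact congrArg Subtype.val ((hp ⟨_, ξ, rfl⟩).symm.trans k')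
  · haveI := FiniteDimensional.complete ℂ (LinearMap.range (ad x))
    have k1 := (h1.prodMk (h5.comp (0, x) hasStrictFDerivAt_snd)).map_nhds_eq_of_surj
      (LinearMap.range_eq_top.2 fun ⟨v, r⟩ => by
        obtain ⟨ξ, hξ⟩ := (p v - r).2
        refine ⟨(ξ, v - ad x ξ), Prod.ext ((h2 _ _).trans (add_sub_cancel _ _)) ?_⟩
        show p (v - _) = r
        rw [map_sub, hξ, hp, sub_sub_cancel])
    obtain ⟨U₁, a1, U₂, a2, a3⟩ := mem_nhds_prod_iff.1 hU
    have k2 : s '' U₂ ∈ _ := s4 ▸ image_mem_map a2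
    have k3 : Tendsto (fun ξ : A => 1 + ξ) (𝓝 0) (𝓝 1) :=
      (continuous_const.add continuous_id).tendsto' _ _ (add_zero _)
    have k5 : Tendsto (fun y => (y, (0 : LinearMap.range (ad x)))) (𝓝 x)
        (𝓝 (ac (0, x), P (x - x))) :=
      (Continuous.prodMk_left 0).tendsto' _ _ (by rw [ac_zero, sub_self, map_zero])
    filter_upwards [k5 (k1.ge (image_mem_map (prod_mem_nhds
      ((ac_near (ι := ι)).and (k3.eventually a1)) (he.and (eventually_nhdsWithin_iff.1 k2)))))]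
      with y ⟨⟨ξ, u⟩, ⟨⟨⟨g, b1, b2⟩, b3⟩, b4, b5⟩, b6⟩ hy
    obtain rfl : (fun i => g * u i * (g⁻¹ : Aˣ)) = y := (b2 u).symm.trans (congrArg Prod.fst b6)
    have b7 : P (u - x) = 0 := congrArg Prod.snd b6
    obtain ⟨z, c1, rfl⟩ := b5 (Prod.ext (b4.1 (by simpa [mul_assoc] using hZ g⁻¹ _ hy)) b7)
    exact ⟨g, z, a3 ⟨b1 ▸ b3, c1⟩, rfl⟩

end Vale.Agent.P275XB
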