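import Vale.Agent.P275XB.Loc
import Vale.Agent.P275RG.Aff

/-!
P275 (helper22): the quotient of a smooth closed set of irreducible tuples is a complex manifold,
embedded by traces of words.
-/

set_option linter.all false

open Set Filter Function Module Topology
open scoped Manifold ContDiff Matrix.Norms.Operator
open Vale.Agent.P272.K (Cm Chart At)
open Vale.Agent.P277Z (Hol at_chart)
open Vale.Agent.P281Z Vale.Agent.P275RG

noncomputable section

namespace Vale.Agent.P275XB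

section chart

variable {Q : Type} [TopologicalSpace Q] {N d : ℕ} {τ : Q → Cm N}

/-- a chart from a local parametrisation -/
theorem exists_chart (hτ : IsInducing τ) {σ : Cm d → Q} (ha : AnalyticAt ℂ (fun z => τ (σ z)) 0)
    (hi : Injective (fderiv ℂ (fun z => τ (σ z)) 0)) (ho : 𝓝 (σ 0) ≤ map σ (𝓝 0)) :
    ∃ c : Chart d Q, σ 0 ∈ c.source ∧ ImC N τ c := by
  obtain ⟨L, hL⟩ := (fderiv ℂ (fun z => τ (σ z)) 0 : Cm d →ₗ[ℂ] Cm N).exists_leftInverse_of_injective
    (LinearMap.ker_eq_bot.2 hi)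
  let Λ : Cm N →L[ℂ] Cm d := LinearMap.toContinuousLinearMap L
  obtain ⟨Θ, e1, e2, e3⟩ := ift ((Λ.analyticAt _).fun_comp (f := fun z => τ (σ z)) ha) (by
    rw [show fderiv ℂ (fun z => Λ (τ (σ z))) 0 = _ from
      (Λ.hasFDerivAt.comp 0 ha.differentiableAt.hasFDerivAt).fderiv]
    exact LeftInverse.injective (g := id) (LinearMap.congr_fun hL)) rfl
  replace e1 : ∀ z, Λ (τ (σ z)) = Θ z := fun z => (congrFun e1 z).symm
  let T := Θ.target ∩ {w | AnalyticAt ℂ (fun w => τ (σ (Θ.symm w))) w}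
  have hT : IsOpen T := Θ.open_target.inter (isOpen_analyticAt ℂ _)
  have h0 : Θ 0 ∈ T := ⟨Θ.map_source e2, AnalyticAt.fun_comp (g := fun z => τ (σ z))
    ((Θ.left_inv e2).symm ▸ ha) (e1 0 ▸ e3)⟩
  let S := interior (σ '' (Θ.source ∩ Θ ⁻¹' T))
  have hc : ContinuousOn (fun w => σ (Θ.symm w)) T := fun w hw =>
    (hτ.continuousAt_iff.2 hw.2.continuousAt).continuousWithinAt
  have hl : ∀ q ∈ S, Λ (τ q) ∈ T ∧ σ (Θ.symm (Λ (τ q))) = q := fun q hq => by
    obtain ⟨z, ⟨a, b⟩, rfl⟩ := interior_subset hq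
    rw [e1, Θ.left_inv a]
    exact ⟨b, rfl⟩
  have hr : ∀ w ∈ T, Λ (τ (σ (Θ.symm w))) = w := fun w hw => (e1 _).trans (Θ.right_inv hw.1)
  refine ⟨⟨⟨⟨fun q => Λ (τ q), fun w => σ (Θ.symm w), S, T ∩ (fun w => σ (Θ.symm w)) ⁻¹' S,
    fun q hq => ⟨(hl q hq).1, by rw [mem_preimage, (hl q hq).2]; exact hq⟩, fun w hw => hw.2,
    fun q hq => (hl q hq).2, fun w hw => hr w hw.1⟩, (Λ.continuous.comp hτ.continuous).continuousOn,
    hc.mono inter_subset_left⟩, isOpen_interior,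
    hc.isOpen_inter_preimage hT isOpen_interior⟩, mem_interior_iff_mem_nhds.2 (ho (image_mem_map
      (inter_mem (Θ.open_source.mem_nhds e2) (Θ.continuousAt e2 (hT.mem_nhds h0))))),
    fun w hw e he => ?_⟩
  obtain rfl : e = .refl _ := he.1
  refine ⟨hw.1.2, LeftInverse.injective (g := Λ) (DFunLike.congr_fun
    ((Λ.hasFDerivAt.comp w hw.1.2.differentiableAt.hasFDerivAt).unique
      ((hasFDerivAt_id w).congr_of_eventuallyEq ((hT.eventually_mem hw.1).mono hr))))⟩

theorem atl_emb (A : Atl d N τ) (h : Injective τ) :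
    @Emb d N Q _ _ A.cs _ _ τ (range τ) := by
  let := A.cs
  have := A.isManifold
  exact ⟨fun z => HolA.of_an A.cont.continuousAt (at_chart z) (at_chart _)
    (A.imm z _ ((A.c z).map_source (A.mem z)) _ (((A.c z).left_inv (A.mem z)).symm ▸ at_chart _)).1,
    h, fun z e e' he he' => ((he.1 : ImC N _ e) _ he.mem_target e' (he.left_inv.symm ▸ he')).2, rfl⟩

theorem holA_self {f : Cm d → Cm N} {z : Cm d} (h : AnalyticAt ℂ f z) : HolA d N f z :=
  holA_iff.2 fun i => hol_self.2 (analyticAt_pi_iff.1 h i)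

end chart

variable {ι : Type} [Fintype ι] {n : ℕ}

theorem finrank_ad [NeZero n] {x : ι → Mt n} (h : Irr x) :
    finrank ℂ (LinearMap.range (ad x)) + 1 = n * n := by
  rw [← finrank_Mt, ← (ad x).finrank_range_add_finrank_ker,
    ← finrank_span_singleton (K := ℂ) (one_ne_zero : (1 : Mt n) ≠ 0),
    show LinearMap.ker (ad x) = Submodule.span ℂ {1} from ?_]
  ext ξ
  rw [Submodule.mem_span_singleton]
  refine ⟨fun e => ?_, ?_⟩
  · obtain ⟨c, hc⟩ := h.schur fun i => (sub_eq_zero.1 (congrFun e i)).symm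
    exact ⟨c, hc.symm⟩
  · rintro ⟨c, rfl⟩
    exact funext fun i => by simp [ad_apply]

variable (ι n) in
/-- the short words -/
abbrev Wd : Type := {l : List ι // l.length ≤ 2 * (n * n) + 1}

instance : Finite (Wd ι n) := List.finite_length_le ι _

variable (ι n) in
/-- the number of short words -/
def NW : ℕ := Nat.card (Wd ι n)

/-- the traces of the short words -/
def Tr (x : ι → Mt n) : Cm (NW ι n) := fun k => (wd x ((Finite.equivFin (Wd ι n)).symm k).1).trace

theorem Tr_apply (x : ι → Mt n) (l : Wd ι n) :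
    Tr x (Finite.equivFin (Wd ι n) l) = (wd x l.1).trace := by simp [Tr]

theorem Tr_cj (g : GL (Fin n) ℂ) (x : ι → Mt n) : Tr (cj g x) = Tr x :=
  funext fun _ => trace_wd_cj _ _ _

/-- the trace -/
def trL (n : ℕ) : Mt n →L[ℂ] ℂ := LinearMap.toContinuousLinearMap (Matrix.traceLinearMap _ ℂ ℂ)

theorem an_Tr (x : ι → Mt n) : AnalyticAt ℂ Tr x :=
  AnalyticAt.pi fun _ => ((trL n).analyticAt _).fun_comp (an_wd _ x)

theorem ker_Tr {x v : ι → Mt n} (h : Irr x) (e : fderiv ℂ Tr x v = 0) : ∃ ξ, v = ad x ξ := by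
  refine (ad_of_trace h fun l hl => ?_).imp fun ξ a => funext a
  have k := ((trL n).hasFDerivAt.comp x (an_wd l x).differentiableAt.hasFDerivAt).unique
    (((ContinuousLinearMap.proj (R := ℂ) (φ := fun _ => ℂ)
      (Finite.equivFin (Wd ι n) ⟨l, hl⟩)).hasFDerivAt.comp x
        (an_Tr x).differentiableAt.hasFDerivAt).congr_of_eventuallyEq
      (.of_forall fun y => (Tr_apply y ⟨l, hl⟩).symm))
  rw [← fderiv_wd]
  exact (DFunLike.congr_fun k v).trans (congrFun e _)

variable (ι n) in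
/-- the number of matrix entries -/
def NE : ℕ := Fintype.card (ι × Fin n × Fin n)

/-- the matrix entries -/
def co : (ι → Mt n) ≃L[ℂ] Cm (NE ι n) := LinearEquiv.toContinuousLinearEquiv
  { toFun := fun x k => (fun q : ι × Fin n × Fin n => x q.1 q.2.1 q.2.2) ((Fintype.equivFin _).symm k)
    invFun := fun v i a b => v (Fintype.equivFin _ (i, a, b))
    map_add' := fun _ _ => rfl
    map_smul' := fun _ _ => rfl
    left_inv := fun x => by ext; simp
    right_inv := fun v => funext fun k => congrArg v (Equiv.apply_symm_apply _ k) }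

theorem co_apply (x : ι → Mt n) (q : ι × Fin n × Fin n) :
    co x (Fintype.equivFin _ q) = x q.1 q.2.1 q.2.2 := congrFun (congrFun (congrFun
  (co.symm_apply_apply x) q.1) q.2.1) q.2.2

theorem an_co (x : ι → Mt n) : AnalyticAt ℂ (fun y : ι → Mt n => co y) x :=
  ContinuousLinearEquiv.analyticAt (E := ι → Mt n) co x

theorem an_co_symm (v : Cm (NE ι n)) : AnalyticAt ℂ (fun v => (co.symm v : ι → Mt n)) v :=
  ContinuousLinearEquiv.analyticAt (F := ι → Mt n) co.symm v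

/-- `Z` is a submanifold of dimension `m` near `x` -/
def Smo (m : ℕ) (Z : Set (ι → Mt n)) (x : ι → Mt n) : Prop :=
  ∃ (W : Type) (_ : NormedAddCommGroup W) (_ : NormedSpace ℂ W) (_ : FiniteDimensional ℂ W)
    (Φ : (ι → Mt n) → W), AnalyticAt ℂ Φ x ∧ Surjective (fderiv ℂ Φ x) ∧
      (∀ᶠ y in 𝓝 x, y ∈ Z ↔ Φ y = 0) ∧ finrank ℂ (ι → Mt n) = finrank ℂ W + m

variable {R Q : Type} [TopologicalSpace R] [TopologicalSpace Q]

/-- `R` is a closed smooth invariant set of irreducible tuples, `Q` is the space of orbits -/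
structure Pk (m d : ℕ) (ε : R → ι → Mt n) (π : R → Q) (τ : Q → Cm (NW ι n)) : Prop where
  pos : n ≠ 0
  dim : m + 1 = n * n + d
  emb : IsClosedEmbedding ε
  inv : ∀ g a, cj g (ε a) ∈ range ε
  irr : ∀ a, Irr (ε a)
  smo : ∀ a, Smo m (range ε) (ε a)
  quo : IsQuotientMap π
  fib : ∀ a b, π a = π b ↔ ∃ g, ε b = cj g (ε a)
  tr : ∀ a, τ (π a) = Tr (ε a)

namespace Pk

variable {m d : ℕ} {ε : R → ι → Mt n} {π : R → Q} {τ : Q → Cm (NW ι n)} (P : Pk m d ε π τ)
include P

theorem cont : Continuous τ := P.quo.continuous_iff.2 (by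
  rw [show τ ∘ π = _ from funext P.tr]
  exact (continuous_iff_continuousAt.2 fun x => (an_Tr x).continuousAt).comp P.emb.continuous)

theorem inj : Injective τ := fun q q' e => by
  obtain ⟨a, rfl⟩ := P.quo.surjective q
  obtain ⟨b, rfl⟩ := P.quo.surjective q'
  rw [P.tr, P.tr] at e
  exact (P.fib a b).2 (cj_of_trace (P.irr a) (P.irr b) fun l hl =>
    (Tr_apply _ ⟨l, hl⟩).symm.trans ((congrFun e _).trans (Tr_apply _ _)))

/-- compact sets of orbits have bounded representatives -/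
theorem cpt {K : Set (Cm (NW ι n))} (hK : IsCompact K) :
    ∃ L : Set R, IsCompact L ∧ τ ⁻¹' K ⊆ π '' L := by
  obtain ⟨r, hr⟩ := hK.isBounded.exists_norm_le
  obtain ⟨L, h1, h2⟩ := proper (ι := ι) (n := n) r
  refine ⟨_, P.emb.isCompact_preimage h1, fun q hq => ?_⟩
  obtain ⟨a, rfl⟩ := P.quo.surjective q
  obtain ⟨g, hg⟩ := h2 (ε a) fun l hl => by
    rw [← Tr_apply (ε a) ⟨l, by omega⟩, ← P.tr]
    exact (norm_le_pi_norm _ _).trans (hr _ hq)
  obtain ⟨b, hb⟩ := P.inv g a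
  exact ⟨b, by rwa [mem_preimage, hb], ((P.fib a b).2 ⟨g, hb⟩).symm⟩

/-- **The traces embed the quotient as a closed set** -/
theorem closedEmb : IsClosedEmbedding τ :=
  .of_continuous_injective_isClosedMap P.cont P.inj
    (isProperMap_iff_isCompact_preimage.2 ⟨P.cont, fun K hK =>
      let ⟨_, h1, h2⟩ := P.cpt hK
      (h1.image P.quo.continuous).of_isClosed_subset (hK.isClosed.preimage P.cont) h2⟩).isClosedMap

theorem opn : IsOpenMap π := fun U hU => by
  obtain ⟨O, h1, rfl⟩ := P.emb.isInducing.isOpen_iff.1 hU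
  rw [← P.quo.isOpen_preimage, show π ⁻¹' (π '' (ε ⁻¹' O)) = ⋃ g, (fun a => cj g (ε a)) ⁻¹' O from ?_]
  · exact isOpen_iUnion fun g => h1.preimage ((cont_cj g).comp P.emb.continuous)
  ext a
  rw [mem_iUnion]
  refine ⟨fun ⟨b, h2, h3⟩ => ((P.fib a b).1 h3.symm).imp fun g e => e.subst h2, fun ⟨g, h2⟩ => ?_⟩
  obtain ⟨b, hb⟩ := P.inv g a
  exact ⟨b, hb.symm.subst h2, ((P.fib a b).2 ⟨g, hb⟩).symm⟩

theorem slc (a : R) : ∃ s : Cm d → R, s 0 = a ∧ AnalyticAt ℂ (fun z => ε (s z)) 0 ∧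
    AnalyticAt ℂ (fun z => τ (π (s z))) 0 ∧ Injective (fderiv ℂ (fun z => τ (π (s z))) 0) ∧
    ∀ U ∈ 𝓝 ((1, 0) : Mt n × Cm d), ∀ᶠ b in 𝓝 a,
      ∃ (g : GL (Fin n) ℂ) (z : Cm d), ((g : Mt n), z) ∈ U ∧ ε b = cj g (ε (s z)) := by
  haveI : NeZero n := ⟨P.pos⟩
  haveI : Nonempty R := ⟨a⟩
  obtain ⟨W, _, _, _, Φ, h1, h2, h3, h4⟩ := P.smo a
  obtain ⟨s, s1, s2, s3, s4, s5⟩ := slice (A := Mt n) (d := d) (Z := range ε)
    (fun g _ ⟨b, e⟩ => e ▸ P.inv g b) (mem_range_self a) h1 h2 h3 (by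
      have := finrank_ad (P.irr a)
      have := P.dim
      omega)
  have e : s =ᶠ[𝓝 0] fun z => ε (invFun ε (s z)) := s3.mono fun z hz => (invFun_eq hz).symm
  have e' : (fun z => Tr (s z)) =ᶠ[𝓝 0] fun z => τ (π (invFun ε (s z))) :=
    e.mono fun z hz => (congrArg Tr hz).trans (P.tr _).symm
  refine ⟨fun z => invFun ε (s z),
    (congrArg (invFun ε) s2).trans (leftInverse_invFun P.emb.injective a),
    s1.congr e, ((an_Tr _).fun_comp s1).congr e', ?_, fun U hU => ?_⟩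
  · rw [← e'.fderiv_eq, show fderiv ℂ (fun z => Tr (s z)) 0 = _ from
      ((an_Tr _).differentiableAt.hasFDerivAt.comp 0 s1.differentiableAt.hasFDerivAt).fderiv, s2]
    refine (injective_iff_map_eq_zero _).2 fun v hv => ?_
    obtain ⟨ξ, hξ⟩ := ker_Tr (P.irr a) hv
    exact s4 v ξ hξ
  · filter_upwards [P.emb.continuous.continuousAt (s5 _ (inter_mem hU
      (continuous_snd.continuousAt (x := ((1, 0) : Mt n × Cm d)) e)))] with b hb
    obtain ⟨g, z, h5, h6⟩ := hb (mem_range_self b)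
    exact ⟨g, z, h5.1, h6.trans (congrArg (cj g) h5.2)⟩

theorem chartQ (q : Q) : ∃ c : Chart d Q, q ∈ c.source ∧ ImC (NW ι n) τ c := by
  obtain ⟨a, rfl⟩ := P.quo.surjective q
  obtain ⟨s, rfl, -, h1, h2, h3⟩ := P.slc a
  refine exists_chart (σ := fun z => π (s z)) P.closedEmb.isInducing h1 h2 fun U hU => ?_
  refine mem_of_superset (P.opn.image_mem_nhds (h3 _ (continuous_snd.continuousAt
    (x := ((1, 0) : Mt n × Cm d)) hU))) ?_
  rintro _ ⟨b, ⟨g, z, h4, h5⟩, rfl⟩
  exact ((P.fib _ _).2 ⟨g, h5⟩).subst (motive := (· ∈ U)) h4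

theorem indR : IsClosedEmbedding fun a => co (ε a) :=
  co.toHomeomorph.isClosedEmbedding.comp P.emb

theorem chartR (a : R) : ∃ c : Chart m R, a ∈ c.source ∧ ImC (NE ι n) (fun a => co (ε a)) c := by
  haveI : Nonempty R := ⟨a⟩
  obtain ⟨W, _, _, _, Φ, h1, h2, h3, h4⟩ := P.smo a
  obtain ⟨s, s1, s2, s3, s4⟩ := param h1 (h3.self_of_nhds.1 (mem_range_self a)) h2 h4
  replace s4 : map s (𝓝 0) = 𝓝[range ε] ε a := s4.trans
    (nhdsWithin_eq_iff_eventuallyEq.2 (h3.mono fun y hy => propext hy.symm))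
  have e : s =ᶠ[𝓝 0] fun z => ε (invFun ε (s z)) :=
    (tendsto_nhdsWithin_iff.1 s4.le).2.mono fun z hz => (invFun_eq hz).symm
  have e' : (fun z => co (s z)) =ᶠ[𝓝 0] fun z => co (ε (invFun ε (s z))) := e.mono fun z => congrArg co
  have e0 : invFun ε (s 0) = a := by rw [s2]; exact leftInverse_invFun P.emb.injective a
  refine e0 ▸ exists_chart (σ := fun z => invFun ε (s z)) P.indR.isInducing
    (((an_co _).fun_comp s1).congr e') ?_ ?_
  · rw [← e'.fderiv_eq, show fderiv ℂ (fun z => co (s z)) 0 = _ from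
      ((ContinuousLinearEquiv.hasFDerivAt (E := ι → Mt n) co).comp 0
        s1.differentiableAt.hasFDerivAt).fderiv]
    exact co.injective.comp s3
  · rw [e0, ← map_le_map_iff P.emb.injective,
      P.emb.isInducing.map_nhds_eq, ← s4, map_map]
    exact (map_congr e).le

/-- the atlas of the quotient -/
def atQ : Atl d (NW ι n) τ :=
  ⟨fun q => (P.chartQ q).choose, fun q => (P.chartQ q).choose_spec.1,
    fun q => (P.chartQ q).choose_spec.2, P.cont⟩

/-- the atlas of the space of tuples -/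
def atR : Atl m (NE ι n) fun a => co (ε a) :=
  ⟨fun q => (P.chartR q).choose, fun q => (P.chartR q).choose_spec.1,
    fun q => (P.chartR q).choose_spec.2, P.indR.continuous⟩

variable [ChartedSpace (Cm m) R] [IsManifold 𝓘(ℂ, Cm m) ω R] [ChartedSpace (Cm d) Q]
  [IsManifold 𝓘(ℂ, Cm d) ω Q] {S : Set (Cm (NE ι n))} {T : Set (Cm (NW ι n))}
  (hR : Emb m (NE ι n) (fun a => co (ε a)) S) (hQ : Emb d (NW ι n) τ T)
include hR hQ

/-- the projection is holomorphic -/
theorem hol : HolM m d π := fun a => emb_lift hQ.hol hQ.imm P.closedEmb.isInducing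
  ((HolA.cmp (g := fun v => Tr (co.symm v)) (holA_self ((an_Tr _).fun_comp
    (an_co_symm _))) (hR.hol.at a)).cng
      (.of_forall fun b => by rw [co.symm_apply_apply, P.tr]))

/-- the projection is a submersion -/
theorem sbm (a : R) : Sbm m d π a := by
  obtain ⟨s, rfl, h0, h1, h2, -⟩ := P.slc a
  have h3 : HolA d m s 0 := emb_lift hR.hol hR.imm P.indR.isInducing
    (holA_self ((an_co _).fun_comp h0))
  exact .of_comp (P.hol hR hQ _) h3 (imm_iff_sbm.1
    (.of_comp (hQ.hol.at _) (((P.hol hR hQ).at _).cmp h3) (imm_self h1 h2)))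

end Pk

end Vale.Agent.P275XB
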