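import Vale.Agent.P275XB.Alg

/-!
P275 (helper22): tuples of matrices with bounded traces are conjugate to bounded tuples.
-/

set_option linter.all false

open Submodule Set Matrix Polynomial

noncomputable section

namespace Vale.Agent.P275XB

variable {ι : Type} {n : ℕ}

theorem nil_of_trace {a : Mt n} (h : ∀ p : ℂ[X], (aeval a p * a).trace = 0) : IsNilpotent a := by
  have hi := Algebra.IsIntegral.isIntegral (R := ℂ) a
  obtain ⟨q, e, hq⟩ := exists_eq_pow_rootMultiplicity_mul_and_not_dvd _ (minpoly.ne_zero hi) 0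
  generalize rootMultiplicity 0 (minpoly ℂ a) = N at e
  rw [map_zero, sub_zero] at e hq
  rw [X_dvd_iff] at hq
  obtain ⟨s, hs⟩ : X ∣ 1 - C (q.coeff 0)⁻¹ * q := X_dvd_iff.2 (by simp [hq])
  have h0 : aeval a (X ^ N * q) = 0 := e ▸ minpoly.aeval ℂ a
  have h1 : ∀ k, aeval a (X ^ N * (X * s) ^ k) = aeval a ((X : ℂ[X]) ^ N) := fun k => by
    induction k with
    | zero => rw [pow_zero, mul_one]
    | succ k ih =>
      rw [show X ^ N * (X * s) ^ (k + 1) = X ^ N * (X * s) ^ k -
        (X ^ N * q) * (C (q.coeff 0)⁻¹ * (X * s) ^ k) by rw [pow_succ, ← hs]; ring,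
        map_sub, ih, map_mul _ (X ^ N * q), h0, zero_mul, sub_zero]
  have h2 : IsIdempotentElem (aeval a ((X * s) ^ (N + 1))) := by
    rw [IsIdempotentElem, ← map_mul, show (X * s) ^ (N + 1) * (X * s) ^ (N + 1) =
      X ^ N * (X * s) ^ (N + 1) * (X * s ^ (N + 1)) by ring, map_mul, h1, ← map_mul]
    congr 1
    ring
  have h3 := (LinearMap.IsIdempotentElem.trace_eq_zero_iff (h2.map toLinAlgEquiv')).1 (by
    rw [show (X * s) ^ (N + 1) = (X * s) ^ N * s * X by ring, map_mul _ _ X, aeval_X]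
    exact (trace_toLin'_eq _).trans (h _))
  refine ⟨N, ?_⟩
  have h4 := h1 (N + 1)
  rw [map_mul, (map_eq_zero_iff _ toLinAlgEquiv'.injective).1 h3, mul_zero] at h4
  simpa using h4.symm

/-- if the traces vanish then the long words vanish -/
theorem long_of_trace {z : ι → Mt n}
    (h : ∀ l, l.length ≤ n * n → ∀ i, (wd z (l ++ [i])).trace = 0) :
    ∃ k, ∀ l : List ι, l.length = k → wd z l = 0 := by
  let B := Algebra.adjoin ℂ (range z)
  have hB : ∀ b ∈ B, ∀ i, (b * z i).trace = 0 := fun b hb i => by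
    have h1 : b ∈ span ℂ (Submonoid.closure (range z) : Set (Mt n)) := by
      rwa [← Algebra.adjoin_eq_span]
    refine Sp_le (x := z) (k := n * n)
      (S := LinearMap.ker (traceLinearMap _ ℂ ℂ ∘ₗ LinearMap.mulRight ℂ (z i)))
      (fun l e => by simpa [wd_append] using h l e i) (span_le.2 (fun c hc => ?_) h1)
    obtain ⟨l, rfl⟩ : ∃ l, wd z l = c := by
      induction hc using Submonoid.closure_induction_left with
      | one => exact ⟨[], rfl⟩
      | mul_left _ hx _ _ ih =>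
        obtain ⟨j, rfl⟩ := hx
        obtain ⟨l, rfl⟩ := ih
        exact ⟨j :: l, wd_cons _ _ _⟩
    exact finrank_Mt n ▸ mem_Sp z l
  let y : ι → B := fun i => ⟨z i, Algebra.subset_adjoin ⟨i, rfl⟩⟩
  haveI := IsArtinianRing.of_finite ℂ B
  obtain ⟨k, hk⟩ := IsArtinianRing.isNilpotent_jacobson_bot (R := B)
  have hy : ∀ i, y i ∈ Ideal.jacobson (⊥ : Ideal B) := fun i => Ideal.mem_jacobson_iff.2 fun b => by
    have h1 : IsNilpotent (B.val (b * y i)) := nil_of_trace fun p => by
      rw [aeval_algHom_apply, map_mul, ← mul_assoc, ← map_mul]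
      exact hB _ (aeval (b * y i) p * b : B).2 i
    obtain ⟨u, hu⟩ := ((IsNilpotent.map_iff (f := B.val) Subtype.val_injective).1 h1).isUnit_add_one
    refine ⟨(u⁻¹ : Bˣ), ?_⟩
    rw [Ideal.mem_bot, mul_assoc, ← mul_add_one, ← hu, Units.inv_mul, sub_self]
  have h2 : ∀ l : List ι, wd y l ∈ Ideal.jacobson (⊥ : Ideal B) ^ l.length := fun l => by
    induction l with
    | nil => simp [Submodule.pow_zero]
    | cons i l ih =>
      rw [wd_cons, List.length_cons, Ideal.IsTwoSided.pow_succ]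
      exact Ideal.mul_mem_mul (hy i) ih
  refine ⟨k, fun l e => ?_⟩
  have h3 := h2 l
  rw [e, hk] at h3
  have h4 := map_wd B.val y l
  rw [show wd y l = 0 from h3, map_zero] at h4
  exact h4.symm

theorem diag_sq (a : Mt n) (q : Fin n) : (aᴴ * a) q q = ((∑ p, ‖a p q‖ ^ 2 : ℝ) : ℂ) := by
  simp [mul_apply, Complex.conj_mul']

open scoped ComplexOrder MatrixOrder Matrix.Norms.L2Operator in
theorem shrink [Fintype ι] {z : ι → Mt n} {k : ℕ} (h : ∀ l : List ι, l.length = k → wd z l = 0) :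
    ∃ g, ∀ i p q, ‖cj g z i p q‖ ≤ 1 := by
  let H : ℕ → Mt n := fun k => Nat.rec 0 (fun _ M => 1 + ∑ i, (z i)ᴴ * M * z i) k
  have h0 : ∀ k, H (k + 1) = 1 + ∑ i, (z i)ᴴ * H k * z i := fun _ => rfl
  have h1 : ∀ k, (H k).PosSemidef := fun k => by
    induction k with
    | zero => exact .zero
    | succ k ih => exact .add .one (posSemidef_sum _ fun i _ => ih.conjTranspose_mul_mul_same _)
  have h2 : ∀ k (N : Mt n), (∀ l : List ι, l.length = k → wd z l * N = 0) →
      (H (k + 1) - H k) * N = 0 := fun k => by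
    induction k with
    | zero => exact fun N e => by simpa [H] using e [] rfl
    | succ k ih =>
      intro N e
      rw [show H (k + 1 + 1) - H (k + 1) = _ from add_sub_add_left_eq_sub _ _ _,
        ← Finset.sum_sub_distrib, Finset.sum_mul]
      refine Finset.sum_eq_zero fun i _ => ?_
      rw [← sub_mul, ← mul_sub, mul_assoc, mul_assoc, ih, mul_zero]
      exact fun l hl => by simpa [wd_append, mul_assoc] using e (l ++ [i]) (by simp [hl])
  have h3 : H (k + 1) = H k := by simpa [sub_eq_zero] using h2 k 1 fun l e => by rw [h l e, zero_mul]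
  have h4 : (H (k + 1)).PosDef :=
    .add_posSemidef .one (posSemidef_sum _ fun i _ => (h1 k).conjTranspose_mul_mul_same _)
  obtain ⟨_, ⟨g, rfl⟩, e⟩ :=
    CStarAlgebra.isStrictlyPositive_iff_eq_star_mul_self.mp h4.isStrictlyPositive
  refine ⟨g, fun i p q => ?_⟩
  have h5 : ((g⁻¹ : GL (Fin n) ℂ) : Mt n)ᴴ * H (k + 1) * (g⁻¹ : GL (Fin n) ℂ) = 1 := by
    rw [e, star_eq_conjTranspose, ← mul_assoc, ← conjTranspose_mul, Units.mul_inv, conjTranspose_one,
      one_mul, Units.mul_inv]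
  rw [h0, ← h3, e, mul_add, add_mul, mul_one, Finset.mul_sum, Finset.sum_mul] at h5
  have h6 := congrFun (congrFun h5 q) q
  have h7 : ∀ i, ((g⁻¹ : GL (Fin n) ℂ) : Mt n)ᴴ * ((z i)ᴴ * (star (g : Mt n) * g) * z i) *
      (g⁻¹ : GL (Fin n) ℂ) = (cj g z i)ᴴ * cj g z i := fun i => by
    simp only [cj, conjTranspose_mul, star_eq_conjTranspose, mul_assoc]
  simp only [h7, Matrix.add_apply, Matrix.sum_apply, diag_sq, one_apply_eq] at h6
  norm_cast at h6
  refine (sq_le_one_iff₀ (norm_nonneg _)).1 (h6 ▸ le_add_of_nonneg_of_le (by positivity) ?_)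
  exact (Finset.single_le_sum (f := fun p => ‖cj g z i p q‖ ^ 2) (fun _ _ => by positivity)
    (Finset.mem_univ p)).trans (Finset.single_le_sum (f := fun i => ∑ p, ‖cj g z i p q‖ ^ 2)
      (fun _ _ => by positivity) (Finset.mem_univ i))

theorem wd_smul (c : ℂ) (x : ι → Mt n) (l : List ι) : wd (c • x) l = c ^ l.length • wd x l := by
  induction l with
  | nil => simp
  | cons i l ih => simp [ih, smul_smul, pow_succ]

theorem cj_smul (g : GL (Fin n) ℂ) (c : ℂ) (x : ι → Mt n) : cj g (c • x) = c • cj g x :=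
  funext fun i => by simp [cj]

theorem cont_wd (l : List ι) : Continuous fun x : ι → Mt n => wd x l := by
  induction l with
  | nil => exact continuous_const
  | cons i l ih => simp only [wd_cons]; exact (continuous_apply i).mul ih

theorem cont_cj (g : GL (Fin n) ℂ) : Continuous (cj g : (ι → Mt n) → _) := by
  unfold cj
  fun_prop

open scoped Matrix.Norms.Elementwise in
/-- **Tuples with bounded traces are conjugate to bounded tuples** -/
theorem proper [Fintype ι] (R : ℝ) : ∃ K : Set (ι → Mt n), IsCompact K ∧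
    ∀ y, (∀ l : List ι, l.length ≤ n * n + 1 → ‖(wd y l).trace‖ ≤ R) → ∃ g, cj g y ∈ K := by
  haveI := FiniteDimensional.proper ℂ (ι → Mt n)
  have hS : IsCompact (Metric.sphere (0 : ι → Mt n) 1 ∩ ⋂ g, {z | 1 / 2 ≤ ‖cj g z‖}) :=
    (isCompact_sphere _ _).inter_right (isClosed_iInter fun g =>
      isClosed_le continuous_const (cont_cj g).norm)
  obtain ⟨m, hm⟩ := hS.elim_directed_cover (fun m : ℕ => ⋃ l : {l : List ι // l.length ≤ n * n},
      ⋃ i, {z | 1 / ((m : ℝ) + 1) < ‖(wd z (l.1 ++ [i])).trace‖})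
    (fun m => isOpen_iUnion fun l => isOpen_iUnion fun i =>
      isOpen_lt continuous_const (cont_wd _).matrix_trace.norm) (fun z hz => by
      by_contra h
      simp only [mem_iUnion, not_exists, mem_setOf_eq, not_lt] at h
      obtain ⟨k, hk⟩ := long_of_trace (z := z) fun l e i => norm_le_zero_iff.1 (not_lt.1 fun h0 => by
        obtain ⟨m, hm⟩ := exists_nat_one_div_lt h0
        exact hm.not_ge (h m ⟨l, e⟩ i))
      obtain ⟨g, hg⟩ := shrink (z := (4 : ℂ) • z) (k := k) fun l e => by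
        rw [wd_smul, hk l e, smul_zero]
      have h1 : ‖cj g ((4 : ℂ) • z)‖ ≤ 1 := (pi_norm_le_iff_of_nonneg zero_le_one).2 fun i =>
        (norm_le_iff zero_le_one).2 (hg i)
      have h2 : 1 / 2 ≤ ‖cj g z‖ := mem_iInter.1 hz.2 g
      rw [cj_smul, norm_smul, Complex.norm_ofNat] at h1
      linarith)
    (directed_of_isDirected_le fun a b e => iUnion_mono fun l => iUnion_mono fun i z hz =>
      (Nat.one_div_le_one_div e).trans_lt (show 1 / ((a : ℝ) + 1) < _ from hz))
  refine ⟨Metric.closedBall 0 (max 1 (R * (m + 1))), isCompact_closedBall _ _, fun y hy => ?_⟩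
  by_contra! h
  simp only [mem_closedBall_zero_iff, not_le, max_lt_iff] at h
  have hb : BddBelow (range fun g => ‖cj g y‖) := ⟨0, by rintro _ ⟨g, rfl⟩; exact norm_nonneg _⟩
  have h1 : 1 ≤ ⨅ g, ‖cj g y‖ := le_ciInf fun g => (h g).1.le
  obtain ⟨g, hg⟩ := exists_lt_of_ciInf_lt (f := fun g => ‖cj g y‖) (a := 2 * ⨅ g, ‖cj g y‖) (by linarith)
  obtain ⟨h2, h3⟩ := h g
  set r := ‖cj g y‖ with hr
  have h4 : ‖((r : ℂ))⁻¹‖ = r⁻¹ := by simp [hr]
  have := hm (a := ((r : ℂ))⁻¹ • cj g y) ⟨by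
    rw [mem_sphere_zero_iff_norm, norm_smul, h4, inv_mul_cancel₀ (by linarith)], mem_iInter.2 fun g' => by
      show 1 / 2 ≤ ‖_‖
      rw [cj_smul, norm_smul, h4, ← cj_mul, le_inv_mul_iff₀ (by linarith)]
      linarith [ciInf_le hb (g' * g)]⟩
  simp only [mem_iUnion, mem_setOf_eq] at this
  obtain ⟨l, i, e⟩ := this
  rw [wd_smul, trace_smul, norm_smul, norm_pow, h4, trace_wd_cj] at e
  have h5 : r⁻¹ ^ (l.1 ++ [i]).length ≤ r⁻¹ :=
    pow_le_of_le_one (by positivity) (inv_le_one_of_one_le₀ h2.le) (by simp)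
  have h6 := e.trans_le (mul_le_mul h5 (hy _ (by simpa using l.2)) (norm_nonneg _) (by positivity))
  rw [div_lt_iff₀ (by positivity), mul_assoc, lt_inv_mul_iff₀ (by linarith)] at h6
  linarith

end Vale.Agent.P275XB
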